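import Vale.Agent.P251EJ.DefsS
import Vale.Agent.P251.G.Cofib
import Vale.Agent.P251.I.CofTriangle

/-!
# P251EJ, row COV: the coinvariants theorem
-/

open CategoryTheory MonoidalCategory Limits Pretriangulated Set Topology OnePoint

universe v u

set_option linter.unusedSectionVars false

noncomputable section

namespace Vale.Agent.P251EJ93

open Vale.Agent.P251 Vale.Agent.P251.T Vale.Agent.P251.G Vale.Agent.P251.G.LC
  Vale.Agent.P251.G.Cell Vale.Agent.P251.I Vale.Agent.P251EJ Vale.Agent.P251.M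

theorem cofib_of_relCell {D : Set ℕ} {A B : LC} {f : A ⟶ B} (h : RelCell D f) : Cofib f := by
  induction h with
  | iso f => exact cofib_of_isIso' f
  | step i a ha hi e => exact hi
  | comp _ _ ihf ihg => exact ihf.comp' ihg

/-- the conclusions of `TopS` -/
structure Tp {Y : Type} [TopologicalSpace Y] (C : P251EJ.Cells Y) : Prop where
  ch : ∀ d, CellChain univ (C.sk d) (C.sk (d + 1))
  cl : ∀ d, IsClosed (C.sk d)
  emb : ∀ (d k : ℕ) (e : Fin k ≃ C.P d),
    IsEmbedding fun z : Fin k × interior (ordS d) => C.c d (e z.1) z.2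
  ho : ∀ d, Nonempty (interior (ordS d) ≃ₜ (Fin d → ℝ))

instance (d : ℕ) : LocallyCompactSpace (interior (ordS d)) := isOpen_interior.locallyCompactSpace

section space

variable {Y : Type} [TopologicalSpace Y] [CompactSpace Y] [T2Space Y] {C : P251EJ.Cells Y}
  (h : Tp C)

/-- the skeleton -/
abbrev sk (d : ℕ) : LC := sub (Y := LC.of Y) (h.cl d)

instance (d : ℕ) : CompactSpace (sk h d) := isCompact_iff_compactSpace.1 (h.cl d).isCompact

/-- the inclusion of a skeleton in the next one -/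
def io (d : ℕ) : sk h d ⟶ sk h (d + 1) :=
  ofCompact (X := sk h d) (Y := sk h (d + 1)) (Set.inclusion (C.mono d))
    (continuous_inclusion (C.mono d))

theorem io_sub (d : ℕ) : io h d ≫ subι (Y := LC.of Y) (h.cl (d + 1)) =
    subι (Y := LC.of Y) (h.cl d) := by
  ext x; rfl

theorem range_sub (d : ℕ) : range (app (subι (Y := LC.of Y) (h.cl d))) =
    {∞} ∪ ((↑) : Y → OnePoint Y) '' C.sk d := by
  ext y
  rw [mem_range_subι]
  induction y using OnePoint.rec with
  | infty => simp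
  | coe y =>
    constructor
    · intro hy; exact Or.inr ⟨y, hy y rfl, rfl⟩
    · rintro (hy | ⟨z, hz, hy⟩) w hw
      · exact absurd hy (OnePoint.coe_ne_infty y)
      · have : z = w := OnePoint.coe_injective (hy.trans hw)
        exact this ▸ hz

theorem inj_io (d : ℕ) : Function.Injective (app (io h d)) := by
  have := injective_subι (Y := LC.of Y) (h.cl d)
  rw [← io_sub h d] at this
  exact Function.Injective.of_comp (f := app (subι (Y := LC.of Y) (h.cl (d + 1)))) this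

theorem relCell_io (d : ℕ) : RelCell univ (io h d) := by
  have h1 := ((h.ch d).image (f := ((↑) : Y → OnePoint Y)) OnePoint.continuous_coe.continuousOn
    OnePoint.coe_injective.injOn).union (Z := {∞}) (by
      rintro _ ⟨rfl, z, -, hz⟩
      exact absurd hz (OnePoint.coe_ne_infty z))
  refine relCell_of_chain_aux h1 (io h d) (app (subι (Y := LC.of Y) (h.cl (d + 1))))
    (continuous_app _) (injective_subι _) (inj_io h d) ?_ (range_sub h (d + 1))
  rw [← range_sub h d, ← io_sub h d]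
  rfl

theorem cofib_io (d : ℕ) : Cofib (io h d) := cofib_of_relCell (relCell_io h d)

theorem isEmpty_sk : IsEmpty (sk h 0) := ⟨fun x => (C.sk_zero.subset x.2 : x.1 ∈ (∅ : Set Y))⟩

theorem fc_sk : ∀ d, FC (sk h d)
  | 0 => haveI := isEmpty_sk h; FC.of_isEmpty _
  | d + 1 => (relCell_io h d).fc (fc_sk d)

theorem isIso_sub {d : ℕ} (hd : C.sk d = univ) : IsIso (subι (Y := LC.of Y) (h.cl d)) := by
  refine isIso_of_bijective _ ⟨injective_subι _, fun y => ?_⟩
  exact (mem_range_subι (Y := LC.of Y) (h.cl d) y).2 fun z _ => hd ▸ mem_univ z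

theorem mem_range_io (d : ℕ) (b : sk h (d + 1)) :
    (b : OnePoint (sk h (d + 1))) ∈ range (app (io h d)) ↔ b.1 ∈ C.sk d := by
  constructor
  · rintro ⟨a, ha⟩
    induction a using OnePoint.rec with
    | infty => exact absurd ((app_infty _).symm.trans ha).symm (OnePoint.coe_ne_infty b)
    | coe a =>
      have : Set.inclusion (C.mono d) a = b := OnePoint.coe_injective ha
      rw [← this]
      exact a.2
  · intro hb
    exact ⟨OnePoint.some (X := sk h d) ⟨b.1, hb⟩, rfl⟩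

/-- the skeleton in `FCat` -/
abbrev skF (d : ℕ) : FCat := FCat.mk (fc_sk h d)

/-- the inclusion in `FCat` -/
abbrev ioF (d : ℕ) : skF h d ⟶ skF h (d + 1) := FCat.hom (io h d)

/-- the stratum in `FCat` -/
abbrev stF (d : ℕ) : FCat := cofF (ioF h d) (cofib_io h d)

/-- the homeomorphism of the open cells with the stratum -/
theorem exists_homeo (d k : ℕ) (e : Fin k ≃ C.P d) :
    ∃ φ : (Fin k × interior (ordS d)) ≃ₜ cof (io h d), ∀ z, (φ z).1.1 = C.c d (e z.1) z.2 := by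
  have hm : ∀ z : Fin k × interior (ordS d), C.c d (e z.1) z.2 ∈ C.sk (d + 1) \ C.sk d := by
    intro z
    rw [C.cov d]
    exact mem_iUnion.2 ⟨e z.1, z.2, z.2.2, rfl⟩
  let f : Fin k × interior (ordS d) → cof (io h d) := fun z =>
    ⟨⟨C.c d (e z.1) z.2, (hm z).1⟩, fun hr => (hm z).2 ((mem_range_io h d _).1 hr)⟩
  have hv : IsEmbedding (fun u : cof (io h d) => (u.1.1 : Y)) :=
    IsEmbedding.subtypeVal.comp IsEmbedding.subtypeVal
  have hf : IsEmbedding f := (IsEmbedding.of_comp_iff hv).1 (h.emb d k e)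
  have hs : Function.Surjective f := by
    intro u
    have hu : u.1.1 ∈ C.sk (d + 1) \ C.sk d :=
      ⟨u.1.2, fun hb => u.2 ((mem_range_io h d _).2 hb)⟩
    rw [C.cov d] at hu
    obtain ⟨x, s, hs, hx⟩ := mem_iUnion.1 hu
    refine ⟨(e.symm x, ⟨s, hs⟩), Subtype.ext (Subtype.ext ?_)⟩
    change C.c d (e (e.symm x)) s = u.1.1
    rw [e.apply_symm_apply, hx]
  exact ⟨hf.toHomeomorphOfSurjective hs, fun z => rfl⟩

end space

section maps

variable {Y Z W : Type} [TopologicalSpace Y] [CompactSpace Y] [T2Space Y] [TopologicalSpace Z]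
  [CompactSpace Z] [T2Space Z] [TopologicalSpace W] [CompactSpace W] [T2Space W]
  {C : P251EJ.Cells Y} {C' : P251EJ.Cells Z} {C'' : P251EJ.Cells W}
  (h : Tp C) (h' : Tp C') (h'' : Tp C'')

/-- the restriction of a cellular map to a skeleton -/
def res (f : C(Y, Z)) (hf : ∀ d y, f y ∈ C'.sk d ↔ y ∈ C.sk d) (d : ℕ) : skF h d ⟶ skF h' d :=
  FCat.hom (ofCompact (X := sk h d) (Y := sk h' d) (fun y => ⟨f y.1, (hf d y.1).2 y.2⟩)
    ((f.continuous.comp continuous_subtype_val).subtype_mk _))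

theorem io_res (f : C(Y, Z)) (hf : ∀ d y, f y ∈ C'.sk d ↔ y ∈ C.sk d) (d : ℕ) :
    ioF h d ≫ res h h' f hf (d + 1) = res h h' f hf d ≫ ioF h' d := by
  apply ObjectProperty.hom_ext
  apply LC.hom_ext
  intro x
  rfl

theorem io_res_cof (f : C(Y, Z)) (hf : ∀ d y, f y ∈ C'.sk d ↔ y ∈ C.sk d) (d : ℕ) :
    io h d ≫ (res h h' f hf (d + 1)).hom ≫ cofMap (io h' d) = 0 := by
  have := congrArg (·.hom) (io_res h h' f hf d)
  change io h d ≫ (res h h' f hf (d + 1)).hom = (res h h' f hf d).hom ≫ io h' d at this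
  rw [← Category.assoc, this, Category.assoc, comp_cofMap, comp_zero]

/-- the map of strata -/
def str (f : C(Y, Z)) (hf : ∀ d y, f y ∈ C'.sk d ↔ y ∈ C.sk d) (d : ℕ) : stF h d ⟶ stF h' d :=
  FCat.hom (cofDesc (io h d) ((res h h' f hf (d + 1)).hom ≫ cofMap (io h' d))
    (io_res_cof h h' f hf d))

theorem map_str (f : C(Y, Z)) (hf : ∀ d y, f y ∈ C'.sk d ↔ y ∈ C.sk d) (d : ℕ) :
    cofMap (io h d) ≫ (str h h' f hf d).hom = (res h h' f hf (d + 1)).hom ≫ cofMap (io h' d) :=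
  cofMap_cofDesc _ _ (io_res_cof h h' f hf d)

theorem mapF_str (f : C(Y, Z)) (hf : ∀ d y, f y ∈ C'.sk d ↔ y ∈ C.sk d) (d : ℕ) :
    res h h' f hf (d + 1) ≫ cofMapF (ioF h' d) (cofib_io h' d) =
      cofMapF (ioF h d) (cofib_io h d) ≫ str h h' f hf d :=
  ObjectProperty.hom_ext _ (map_str h h' f hf d).symm

theorem res_comp (f : C(Y, Z)) (hf : ∀ d y, f y ∈ C'.sk d ↔ y ∈ C.sk d) (g : C(Z, W))
    (hg : ∀ d y, g y ∈ C''.sk d ↔ y ∈ C'.sk d) (k : C(Y, W))
    (hk : ∀ d y, k y ∈ C''.sk d ↔ y ∈ C.sk d) (e : ∀ y, g (f y) = k y) (d : ℕ) :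
    res h h' f hf d ≫ res h' h'' g hg d = res h h'' k hk d := by
  apply ObjectProperty.hom_ext
  apply LC.hom_ext
  intro x
  exact congrArg (fun z : sk h'' d => (z : OnePoint (sk h'' d))) (Subtype.ext (e x.1))

theorem str_comp (f : C(Y, Z)) (hf : ∀ d y, f y ∈ C'.sk d ↔ y ∈ C.sk d) (g : C(Z, W))
    (hg : ∀ d y, g y ∈ C''.sk d ↔ y ∈ C'.sk d) (k : C(Y, W))
    (hk : ∀ d y, k y ∈ C''.sk d ↔ y ∈ C.sk d) (e : ∀ y, g (f y) = k y) (d : ℕ) :
    str h h' f hf d ≫ str h' h'' g hg d = str h h'' k hk d := by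
  apply ObjectProperty.hom_ext
  change (str h h' f hf d).hom ≫ (str h' h'' g hg d).hom = (str h h'' k hk d).hom
  have h1 := congrArg (·.hom) (res_comp h h' h'' f hf g hg k hk e (d + 1))
  change (res h h' f hf (d + 1)).hom ≫ (res h' h'' g hg (d + 1)).hom =
    (res h h'' k hk (d + 1)).hom at h1
  rw [← cancel_epi (cofMap (io h d)), ← Category.assoc, map_str, Category.assoc, map_str, map_str,
    ← Category.assoc, h1]

theorem app_str (f : C(Y, Z)) (hf : ∀ d y, f y ∈ C'.sk d ↔ y ∈ C.sk d) (d : ℕ)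
    (u : cof (io h d)) (u' : cof (io h' d)) (e : u'.1.1 = f u.1.1) :
    app (str h h' f hf d).hom (u : OnePoint (cof (io h d))) = OnePoint.some u' := by
  have h1 := app_cofMap_coe (io h' d) u'
  have h2 : u'.1 = ⟨f u.1.1, (hf (d + 1) u.1.1).2 u.1.2⟩ := Subtype.ext e
  rw [h2] at h1
  exact h1

theorem res_sub (hY : FC (LC.of Y)) (hZ : FC (LC.of Z)) (f : C(Y, Z))
    (hf : ∀ d y, f y ∈ C'.sk d ↔ y ∈ C.sk d) (d : ℕ) :
    res h h' f hf d ≫ (FCat.hom (subι (Y := LC.of Z) (h'.cl d)) : skF h' d ⟶ FCat.mk hZ) =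
      (FCat.hom (subι (Y := LC.of Y) (h.cl d)) : skF h d ⟶ FCat.mk hY) ≫
        FCat.hom (ofCompact (X := LC.of Y) (Y := LC.of Z) f f.continuous) := by
  apply ObjectProperty.hom_ext
  apply LC.hom_ext
  intro x
  rfl

end maps

section cat

variable {T : Type u} [Category.{v} T] [Preadditive T]

theorem cov_of_isZero {G : Type} {A A' : T} (hA : IsZero A) (hA' : IsZero A') (ρ : G → (A ⟶ A))
    (q : A ⟶ A') : Cov ρ q :=
  ⟨fun _ b _ => ⟨1, one_ne_zero, hA'.eq_of_src _ _⟩,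
    fun _ _ _ => ⟨1, 0, one_ne_zero, hA.eq_of_src _ _⟩⟩

theorem cov_of_iso {G : Type} {A A' B B' : T} {ρ : G → (A ⟶ A)} {q : A ⟶ A'} (hc : Cov ρ q)
    (a : A ⟶ B) (a' : A' ⟶ B') [IsIso a] [IsIso a'] {ρ' : G → (B ⟶ B)} {q' : B ⟶ B'}
    (h1 : ∀ g, ρ g ≫ a = a ≫ ρ' g) (h2 : q ≫ a' = a ≫ q') : Cov ρ' q' := by
  constructor
  · intro V b hb
    obtain ⟨m, hm, e⟩ := hc.inj V (a' ≫ b) (by
      rw [← Category.assoc, h2, Category.assoc, hb, comp_zero])
    refine ⟨m, hm, ?_⟩
    rw [← cancel_epi a', Preadditive.comp_zsmul, e, comp_zero]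
  · intro V x hx
    obtain ⟨m, b, hm, e⟩ := hc.surj V (a ≫ x) (fun g => by
      rw [← Category.assoc, h1, Category.assoc, hx])
    refine ⟨m, inv a' ≫ b, hm, ?_⟩
    rw [← cancel_epi a, Preadditive.comp_zsmul, ← e, ← Category.assoc, ← h2, Category.assoc,
      IsIso.hom_inv_id_assoc]

end cat

section susp

variable {T : Type u} [Category.{v} T] [Preadditive T] [HasZeroObject T]
    [HasShift T ℤ] [∀ n : ℤ, (shiftFunctor T n).Additive] [Pretriangulated T]
    [MonoidalCategory T] [SymmetricCategory T] [TensorTriangulated T] (F : SpaceFunctor T)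

theorem isSum_fin (X : FCat) (k : ℕ) {P : Type} (e : Fin k ≃ P) {C : T}
    (φ : F.S.obj (fProd X k) ⟶ C) [IsIso φ] :
    IsSum fun x : P => F.S.map (fIncl X k (e.symm x)) ≫ φ := by
  constructor
  · intro V a ha
    rw [← cancel_epi φ, comp_zero, ← Category.id_comp (φ ≫ a), ← sum_finProd F X k,
      Preadditive.sum_comp]
    refine Finset.sum_eq_zero fun i _ => ?_
    have := ha (e i)
    rw [e.symm_apply_apply, Category.assoc] at this
    rw [Category.assoc, this, comp_zero]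
  · intro V w
    refine ⟨inv φ ≫ ∑ i, F.S.map (fColl X k i) ≫ w (e i), fun x => ?_⟩
    rw [Category.assoc, IsIso.hom_inv_id_assoc, Preadditive.comp_sum,
      Finset.sum_eq_single (e.symm x)]
    · rw [← Category.assoc, S_comp_eq_id F _ _ (finIncl_finColl X.obj k _), Category.id_comp,
        e.apply_symm_apply]
    · intro i _ hi
      rw [← Category.assoc, S_comp_eq_zero F _ _ (finIncl_finColl_ne X.obj k hi.symm), zero_comp]
    · intro hx
      exact absurd (Finset.mem_univ _) hx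

theorem exists_j {Y : Type} [TopologicalSpace Y] [CompactSpace Y] [T2Space Y]
    {C : P251EJ.Cells Y} (h : Tp C) (d : ℕ) (hE : FC (LC.of (interior (ordS d)))) :
    ∃ j : C.P d → (FCat.mk hE ⟶ stF h d), IsSum (fun x => F.S.map (j x)) ∧
      ∀ x (s : interior (ordS d)), ∃ u : cof (io h d),
        app (j x).hom (s : OnePoint (interior (ordS d))) = OnePoint.some u ∧ u.1.1 = C.c d x s := by
  let e := (Fintype.equivFin (C.P d)).symm
  obtain ⟨φ, hφ⟩ := exists_homeo h d _ e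
  let ψ : fProd (FCat.mk hE) (Fintype.card (C.P d)) ≅ stF h d :=
    fcIso (ofHomeo (X := finProd (LC.of (interior (ordS d))) _) (Y := cof (io h d)) φ)
  refine ⟨fun x => fIncl (FCat.mk hE) _ (e.symm x) ≫ ψ.hom, ?_, fun x s => ?_⟩
  · simp only [Functor.map_comp]
    exact isSum_fin F _ _ e _
  · refine ⟨φ (e.symm x, s), rfl, ?_⟩
    rw [hφ, e.apply_symm_apply]

theorem j_str {Y Z : Type} [TopologicalSpace Y] [CompactSpace Y] [T2Space Y] [TopologicalSpace Z]
    [CompactSpace Z] [T2Space Z] {C : P251EJ.Cells Y} {C' : P251EJ.Cells Z} (h : Tp C) (h' : Tp C')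
    (f : C(Y, Z)) (hf : ∀ d y, f y ∈ C'.sk d ↔ y ∈ C.sk d) (d : ℕ)
    (hE : FC (LC.of (interior (ordS d)))) (j : FCat.mk hE ⟶ stF h d) (j' : FCat.mk hE ⟶ stF h' d)
    (x : C.P d) (x' : C'.P d)
    (hj : ∀ s : interior (ordS d), ∃ u : cof (io h d),
      app j.hom (s : OnePoint (interior (ordS d))) = OnePoint.some u ∧ u.1.1 = C.c d x s)
    (hj' : ∀ s : interior (ordS d), ∃ u : cof (io h' d),
      app j'.hom (s : OnePoint (interior (ordS d))) = OnePoint.some u ∧ u.1.1 = C'.c d x' s)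
    (e : ∀ s, C'.c d x' s = f (C.c d x s)) :
    F.S.map j ≫ F.S.map (str h h' f hf d) = F.S.map j' := by
  refine S_comp_eq F _ _ _ (LC.hom_ext fun s => ?_)
  obtain ⟨u, hu, hu'⟩ := hj s
  obtain ⟨w, hw, hw'⟩ := hj' s
  have h1 := app_str h h' f hf d u w (by rw [hw', e, hu'])
  exact ((congrArg (app (str h h' f hf d).hom) hu).trans h1).trans hw.symm

theorem covS : CovS F := by
  intro hfree hfive hbody htop hquo G Y Z _ _ _ _ _ _ _ _ C
  obtain ⟨C', π, hN, hq, hc, hπ, hπ'⟩ := hquo hbody G Y Z C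
  obtain ⟨a1, a2, a3, a4⟩ := htop hbody Y C.toCells
  obtain ⟨b1, b2, b3, b4⟩ := htop hbody Z C'
  have h : Tp C.toCells := ⟨a1, a2, a3, a4⟩
  have h' : Tp C' := ⟨b1, b2, b3, b4⟩
  have hqa : ∀ g y, C.q (C.act g y) = C.q y := fun g y => ((C.q_eq _ _).2 ⟨g, rfl⟩).symm
  have key : ∀ d, Cov (fun g => F.S.map (res h h (C.act g) (fun d y => C.act_sk d g y) d))
      (F.S.map (res h h' C.q hq d)) := by
    intro d
    induction d with
    | zero => exact cov_of_isZero (F.isZero (isEmpty_sk h)) (F.isZero (isEmpty_sk h')) _ _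
    | succ d ih =>
      have hE : FC (LC.of (interior (ordS d))) :=
        (FC.sph d).of_homeo (Y := LC.of (interior (ordS d))) (a4 d).some.symm
      obtain ⟨j, hj, hjs⟩ := exists_j F h d hE
      obtain ⟨j', hj', hjs'⟩ := exists_j F h' d hE
      refine hfive G _ _ _ _ _ _ _ _ _ _ _ _ _ _
        (fun g => F.S.map (str h h (C.act g) (fun d y => C.act_sk d g y) d)) _ _
        (F.S.map (str h h' C.q hq d)) (F.cof_distinguished (ioF h d) (cofib_io h d))
        (F.cof_distinguished (ioF h' d) (cofib_io h' d)) ?_ ?_ ?_ ?_ ?_ ?_ ?_ ?_ ?_ ?_ ih ?_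
      · intro g k
        rw [← F.S.map_comp, res_comp h h h _ _ _ _ _ _ (C.act_mul g k)]
      · intro g k
        rw [← F.S.map_comp, str_comp h h h _ _ _ _ _ _ (C.act_mul g k)]
      · intro g
        rw [← F.S.map_comp, ← F.S.map_comp, io_res]
      · intro g
        rw [← F.S.map_comp, ← F.S.map_comp, mapF_str]
      · intro g
        exact F.cofδ_naturality _ _ _ _ _ _ (io_res h h _ _ d) _ (map_str h h _ _ d)
      · rw [← F.S.map_comp, ← F.S.map_comp, io_res]
      · rw [← F.S.map_comp, ← F.S.map_comp, mapF_str]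
      · exact F.cofδ_naturality _ _ _ _ _ _ (io_res h h' _ _ d) _ (map_str h h' _ _ d)
      · intro g
        rw [← F.S.map_comp, res_comp h h h' _ _ _ _ _ _ (hqa g)]
      · intro g
        rw [← F.S.map_comp, str_comp h h h' _ _ _ _ _ _ (hqa g)]
      · refine hfree G _ _ _ _ _ _ _ _ _ (C.pact d) (π d) hj hj' (fun g x => ?_) (fun x => ?_)
          (hπ d) (hπ' d)
        · exact j_str F h h _ _ d hE _ _ x _ (hjs x) (hjs _) (C.c_act d g x)
        · exact j_str F h h' _ _ d hE _ _ x _ (hjs x) (hjs' _) (hc d x)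
  haveI i1 := isIso_sub h C.sk_top
  haveI i2 := isIso_sub h' (hN ▸ C'.sk_top : C'.sk C.N = univ)
  have hY : FC (LC.of Y) := (fc_sk h C.N).of_iso (asIso (subι (Y := LC.of Y) (h.cl C.N)))
  have hZ : FC (LC.of Z) := (fc_sk h' C.N).of_iso (asIso (subι (Y := LC.of Z) (h'.cl C.N)))
  let eY : skF h C.N ≅ FCat.mk hY := fcIso (asIso (subι (Y := LC.of Y) (h.cl C.N)))
  let eZ : skF h' C.N ≅ FCat.mk hZ := fcIso (asIso (subι (Y := LC.of Z) (h'.cl C.N)))
  refine ⟨hY, hZ, cov_of_iso (key C.N) (F.S.map eY.hom) (F.S.map eZ.hom) (fun g => ?_) ?_⟩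
  · rw [Sm, ← F.S.map_comp, ← F.S.map_comp]
    exact congrArg F.S.map (res_sub h h hY hY _ _ _)
  · rw [Sm, ← F.S.map_comp, ← F.S.map_comp]
    exact congrArg F.S.map (res_sub h h' hY hZ _ _ _)

end susp

end Vale.Agent.P251EJ93
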